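import Vale.Agent.P181.RV.Defs

set_option autoImplicit false

/-!
# P181, RV: [NUMV] the final inequality (helper201)
-/

namespace Vale.Agent.P181.RV.H201

/-- The choice and the factorial. -/
theorem choose_fact (t u : ℕ) (hu : 0 < u) :
    (t + u - 1).choose (u - 1) * u.factorial ≤ (t + u) ^ u := by
  obtain ⟨v, rfl⟩ : ∃ v, u = v + 1 := ⟨u - 1, by omega⟩
  have e1 : t + (v + 1) - 1 = t + v := by omega
  have e2 : v + 1 - 1 = v := by omega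
  rw [e1, e2, Nat.factorial_succ, pow_succ]
  have h1 : (t + v).choose v * ((v + 1) * v.factorial) = (t + v).descFactorial v * (v + 1) := by
    rw [Nat.descFactorial_eq_factorial_mul_choose]
    ring
  rw [h1]
  refine Nat.mul_le_mul ?_ (by omega)
  exact (Nat.descFactorial_le_pow _ _).trans (Nat.pow_le_pow_left (by omega) _)

/-- `C(a + b, a) ≤ X ^ (4 a)`. -/
theorem choose_le (a b X : ℕ) (hX : 2 ≤ X) (hb : b ≤ X * a) :
    ((a + b).choose a : ℝ) ≤ (X : ℝ) ^ (4 * a) := by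
  have hXr : (2 : ℝ) ≤ X := by exact_mod_cast hX
  have hX0 : (0 : ℝ) < X := by linarith
  have h1 : (1 / (X : ℝ)) ^ a * ((a + b).choose a : ℝ) ≤ (1 / (X : ℝ) + 1) ^ (a + b) := by
    rw [add_pow]
    have h2 := Finset.single_le_sum (f := fun m => (1 / (X : ℝ)) ^ m * 1 ^ (a + b - m) *
      ((a + b).choose m : ℝ)) (s := Finset.range (a + b + 1)) (fun i _ => by positivity)
      (Finset.mem_range.2 (show a < a + b + 1 by omega))
    simpa using h2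
  have h2 : (1 / (X : ℝ) + 1) ^ (a + b) ≤ (8 : ℝ) ^ a := by
    have h3 : (1 / (X : ℝ) + 1) ≤ Real.exp (1 / X) := Real.add_one_le_exp _
    have h4 : ((a + b : ℕ) : ℝ) * (1 / X) ≤ ((2 * a : ℕ) : ℝ) * 1 := by
      have h5 : a + b ≤ 2 * a * X := by
        have h6 : a * 1 ≤ a * X := Nat.mul_le_mul_left _ (by omega)
        calc a + b ≤ a * X + X * a := by omega
          _ = 2 * a * X := by ring
      have h5' : ((a + b : ℕ) : ℝ) ≤ ((2 * a : ℕ) : ℝ) * X := by exact_mod_cast h5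
      rw [mul_one_div, div_le_iff₀ hX0]
      linarith
    have h7 : Real.exp 1 ^ 2 ≤ 8 := by
      have h8 := Real.exp_one_lt_d9
      have h9 := Real.exp_pos 1
      nlinarith
    calc (1 / (X : ℝ) + 1) ^ (a + b) ≤ Real.exp (1 / X) ^ (a + b) := by gcongr
      _ = Real.exp (((a + b : ℕ) : ℝ) * (1 / X)) := (Real.exp_nat_mul _ _).symm
      _ ≤ Real.exp (((2 * a : ℕ) : ℝ) * 1) := Real.exp_le_exp.2 h4
      _ = (Real.exp 1 ^ 2) ^ a := by rw [Real.exp_nat_mul, pow_mul]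
      _ ≤ 8 ^ a := by gcongr
  have h3 : (8 : ℝ) ≤ (X : ℝ) ^ 3 := by
    calc (8 : ℝ) = 2 ^ 3 := by norm_num
      _ ≤ (X : ℝ) ^ 3 := by gcongr
  calc ((a + b).choose a : ℝ) = (X : ℝ) ^ a * ((1 / (X : ℝ)) ^ a * ((a + b).choose a : ℝ)) := by
        rw [← mul_assoc, ← mul_pow]
        have h5 : (X : ℝ) * (1 / X) = 1 := by field_simp
        rw [h5, one_pow, one_mul]
    _ ≤ (X : ℝ) ^ a * 8 ^ a := by gcongr; exact h1.trans h2
    _ ≤ (X : ℝ) ^ a * ((X : ℝ) ^ 3) ^ a := by gcongr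
    _ = (X : ℝ) ^ (4 * a) := by
        rw [← pow_mul, ← pow_add]
        congr 1
        ring

/-- The main comparison of powers. -/
theorem pow_core (q u v a : ℕ) (A X Q : ℝ) (hq : 1 ≤ q) (hX : 2 ≤ X) (hXA : X ^ (100 * q) ≤ A)
    (hQ : Q = A / (2 * X ^ 2)) (hu : u = v + 2 + a) (hqa : (q + 1) * a ≤ q * u)
    (hqu : 28 * (q + 1) ≤ u) : X ^ (15 * u) * A ^ 15 ≤ Q ^ v := by
  have hX0 : 0 < X := by linarith
  have hA0 : 0 < A := lt_of_lt_of_le (by positivity) hXA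
  have hQ0 : 0 < Q := by rw [hQ]; positivity
  have hX1 : 1 ≤ X := by linarith
  have hA1 : 1 ≤ A := (one_le_pow₀ hX1).trans hXA
  have hQ10 : A ^ 9 ≤ Q ^ 10 := by
    have h1 : (2 * X ^ 2) ^ 10 ≤ A := by
      calc (2 * X ^ 2) ^ 10 ≤ (X * X ^ 2) ^ 10 := by gcongr
        _ = X ^ 30 := by ring
        _ ≤ X ^ (100 * q) := pow_le_pow_right₀ hX1 (by omega)
        _ ≤ A := hXA
    rw [hQ, div_pow, le_div_iff₀ (by positivity)]
    calc A ^ 9 * (2 * X ^ 2) ^ 10 ≤ A ^ 9 * A := by gcongr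
      _ = A ^ 10 := by ring
  refine le_of_pow_le_pow_left₀ (n := 10 * (q + 1)) (by omega) (by positivity) ?_
  have hexp : 3 * u + 150 * (q + 1) ≤ 9 * ((q + 1) * v) := by
    have h1 : q * u + u ≤ (q + 1) * v + 2 * (q + 1) + q * u := by
      calc q * u + u = (q + 1) * v + 2 * (q + 1) + (q + 1) * a := by rw [hu]; ring
        _ ≤ (q + 1) * v + 2 * (q + 1) + q * u := by omega
    omega
  calc (X ^ (15 * u) * A ^ 15) ^ (10 * (q + 1))
      = (X ^ (150 * (q + 1))) ^ u * A ^ (150 * (q + 1)) := by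
        rw [mul_pow, ← pow_mul, ← pow_mul, ← pow_mul]
        congr 2 <;> ring
    _ ≤ (X ^ (100 * q * 3)) ^ u * A ^ (150 * (q + 1)) := by
        have h2 : X ^ (150 * (q + 1)) ≤ X ^ (100 * q * 3) :=
          pow_le_pow_right₀ hX1 (by omega)
        gcongr
    _ ≤ (A ^ 3) ^ u * A ^ (150 * (q + 1)) := by
        have h2 : X ^ (100 * q * 3) ≤ A ^ 3 := by
          rw [pow_mul]
          gcongr
        gcongr
    _ = A ^ (3 * u + 150 * (q + 1)) := by rw [← pow_mul, ← pow_add]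
    _ ≤ A ^ (9 * ((q + 1) * v)) := pow_le_pow_right₀ hA1 hexp
    _ = (A ^ 9) ^ ((q + 1) * v) := by rw [← pow_mul]
    _ ≤ (Q ^ 10) ^ ((q + 1) * v) := by gcongr
    _ = (Q ^ v) ^ (10 * (q + 1)) := by
        rw [← pow_mul, ← pow_mul]
        congr 1
        ring

/-- **[NUMV]** -/
theorem numV : NumV := by
  intro q hq
  refine ⟨56 * q, fun a b X m u t y ha₀ hX hXa hab hb hm hmX hqu hub ht hy => ?_⟩
  have hX0 : 0 < X := by omega
  have hXr : (2 : ℝ) ≤ X := by exact_mod_cast hX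
  have hXr0 : (0 : ℝ) < X := by linarith
  have hXr1 : (1 : ℝ) ≤ X := by linarith
  have ha0 : 0 < a := by omega
  have har : (0 : ℝ) < a := by exact_mod_cast ha0
  have hau : a ≤ u := by
    refine Nat.le_of_mul_le_mul_left (c := q) ?_ (by omega)
    have h1 : (q + 1) * a = q * a + a := by ring
    omega
  have hu0 : 0 < u := by omega
  have hur : (0 : ℝ) < u := by exact_mod_cast hu0
  have hXA : (X : ℝ) ^ (100 * q) ≤ a := by exact_mod_cast hXa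
  have hX4 : (X : ℝ) ^ 4 ≤ a := (pow_le_pow_right₀ hXr1 (by omega)).trans hXA
  have hmu : m ≤ u := by
    have h1 : X ^ 2 ≤ X ^ (100 * q) := Nat.pow_le_pow_right hX0 (by omega)
    omega
  have huqu : 28 * (q + 1) ≤ u := by omega
  have hv : u = (u - 2 - a) + 2 + a := by
    have h1 : (q + 1) * a + u ≤ (q + 1) * u := by
      calc (q + 1) * a + u ≤ q * u + u := by omega
        _ = (q + 1) * u := by ring
    have h2 : (q + 1) * (a + 2) ≤ (q + 1) * u := by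
      have h3 : (q + 1) * (a + 2) = (q + 1) * a + 2 * (q + 1) := by ring
      omega
    have h3 := Nat.le_of_mul_le_mul_left h2 (by omega)
    omega
  obtain ⟨v, hvd⟩ : ∃ v, v = u - 2 - a := ⟨_, rfl⟩
  rw [← hvd] at hv ⊢
  obtain ⟨Q, hQd⟩ : ∃ Q : ℝ, Q = (a : ℝ) / (2 * (X : ℝ) ^ 2) := ⟨_, rfl⟩
  have hQ0 : 0 < Q := by rw [hQd]; positivity
  have hcore := pow_core q u v a (a : ℝ) X Q hq hXr hXA hQd hv hqu huqu
  have hQy : Q ≤ 1 + (y : ℝ) / u := by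
    have h1 : (u : ℝ) ≤ X * a := by exact_mod_cast hub.trans hb
    have h2 : (a : ℝ) ^ 2 ≤ 2 * X * y := by exact_mod_cast hy
    have h3 : Q ≤ (y : ℝ) / u := by
      rw [le_div_iff₀ hur]
      calc Q * u ≤ Q * (X * a) := by gcongr
        _ = (a : ℝ) ^ 2 / (2 * X) := by rw [hQd]; field_simp
        _ ≤ y := by
            rw [div_le_iff₀ (by positivity)]
            linarith
    linarith
  have hyr : (a : ℝ) ^ 2 / (2 * X) ≤ y := by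
    have h2 : (a : ℝ) ^ 2 ≤ 2 * X * y := by exact_mod_cast hy
    rw [div_le_iff₀ (by positivity)]
    linarith
  have htu : ((t + u : ℕ) : ℝ) ≤ 2 * X * (a : ℝ) ^ 2 := by
    have h2 : t + u ≤ 2 * X * a ^ 2 := by
      have h3 : a * b ≤ a * (X * a) := Nat.mul_le_mul_left _ hb
      have h4 : X * a ≤ X * a * a := Nat.le_mul_of_pos_right _ ha0
      calc t + u ≤ a * (X * a) + X * a * a := by omega
        _ = 2 * X * a ^ 2 := by ring
    exact_mod_cast h2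
  have hcf : ((t + u - 1).choose (u - 1) : ℝ) * (u.factorial : ℝ) ≤ (2 * X * (a : ℝ) ^ 2) ^ u := by
    calc ((t + u - 1).choose (u - 1) : ℝ) * (u.factorial : ℝ)
        = (((t + u - 1).choose (u - 1) * u.factorial : ℕ) : ℝ) := by push_cast; rfl
      _ ≤ (((t + u) ^ u : ℕ) : ℝ) := by exact_mod_cast choose_fact t u hu0
      _ = ((t + u : ℕ) : ℝ) ^ u := by push_cast; rfl
      _ ≤ (2 * X * (a : ℝ) ^ 2) ^ u := by gcongr
  have hf : (u.factorial : ℝ) ≤ (X * (a : ℝ)) ^ u := by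
    calc (u.factorial : ℝ) ≤ ((u ^ u : ℕ) : ℝ) := by exact_mod_cast Nat.factorial_le_pow u
      _ = (u : ℝ) ^ u := by push_cast; rfl
      _ ≤ (X * (a : ℝ)) ^ u := by
          have h1 : (u : ℝ) ≤ X * a := by exact_mod_cast hub.trans hb
          gcongr
  obtain ⟨p, rfl⟩ : ∃ p, m = p + 2 := ⟨m - 2, by omega⟩
  have hp : 1 ≤ p := by omega
  have e2 : p + 2 - 2 = p := by omega
  rw [e2]
  obtain ⟨z, hz⟩ : ∃ z, z = u - (p + 2) := ⟨_, rfl⟩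
  rw [← hz]
  have hzu : u = (p + 2) + z := by omega
  have hsplit : (2 * (X : ℝ) ^ 3 * (a : ℝ) ^ 4) ^ u =
      (2 * (X : ℝ) ^ 3 * (a : ℝ) ^ 4) ^ (p + 2) * (8 * (X : ℝ) ^ 5) ^ z *
        ((a : ℝ) ^ 2 / (2 * X)) ^ (2 * z) := by
    have h1 : (2 * (X : ℝ) ^ 3 * (a : ℝ) ^ 4) = 8 * (X : ℝ) ^ 5 * ((a : ℝ) ^ 2 / (2 * X)) ^ 2 := by
      field_simp
      ring
    have h2 : (2 * (X : ℝ) ^ 3 * (a : ℝ) ^ 4) ^ z =
        (8 * (X : ℝ) ^ 5) ^ z * ((a : ℝ) ^ 2 / (2 * X)) ^ (2 * z) := by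
      rw [h1, mul_pow, ← pow_mul]
    rw [hzu, pow_add, h2]
    ring
  have hA5 : 2 * (X : ℝ) ^ 3 * (a : ℝ) ^ 4 ≤ (a : ℝ) ^ 5 := by
    calc 2 * (X : ℝ) ^ 3 * (a : ℝ) ^ 4 ≤ X * (X : ℝ) ^ 3 * (a : ℝ) ^ 4 := by gcongr
      _ = (X : ℝ) ^ 4 * (a : ℝ) ^ 4 := by ring
      _ ≤ a * (a : ℝ) ^ 4 := by gcongr
      _ = (a : ℝ) ^ 5 := by ring
  have ha1 : (1 : ℝ) ≤ a := by exact_mod_cast ha0
  have hleft : (X : ℝ) ^ (4 * a) * 2 ^ ((p + 2) * a) *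
      ((2 * (X : ℝ) ^ 3 * (a : ℝ) ^ 4) ^ (p + 2) * (8 * (X : ℝ) ^ 5) ^ z) ≤
      ((X : ℝ) ^ (15 * u) * (a : ℝ) ^ 15) ^ p := by
    have h1 : (2 : ℝ) ^ ((p + 2) * a) ≤ (X : ℝ) ^ (3 * p * u) := by
      calc (2 : ℝ) ^ ((p + 2) * a) ≤ (X : ℝ) ^ ((p + 2) * a) := by gcongr
        _ ≤ (X : ℝ) ^ (3 * p * u) :=
            pow_le_pow_right₀ hXr1 (Nat.mul_le_mul (by omega) hau)
    have h2 : (2 * (X : ℝ) ^ 3 * (a : ℝ) ^ 4) ^ (p + 2) ≤ (a : ℝ) ^ (15 * p) := by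
      calc (2 * (X : ℝ) ^ 3 * (a : ℝ) ^ 4) ^ (p + 2) ≤ ((a : ℝ) ^ 5) ^ (p + 2) := by gcongr
        _ = (a : ℝ) ^ (5 * (p + 2)) := by rw [← pow_mul]
        _ ≤ (a : ℝ) ^ (15 * p) := pow_le_pow_right₀ ha1 (by omega)
    have h3 : (8 * (X : ℝ) ^ 5) ^ z ≤ (X : ℝ) ^ (8 * u) := by
      have h8 : (8 : ℝ) ≤ (X : ℝ) ^ 3 := by
        calc (8 : ℝ) = 2 ^ 3 := by norm_num
          _ ≤ (X : ℝ) ^ 3 := by gcongr
      calc (8 * (X : ℝ) ^ 5) ^ z ≤ ((X : ℝ) ^ 3 * (X : ℝ) ^ 5) ^ z := by gcongr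
        _ = (X : ℝ) ^ (8 * z) := by rw [← pow_add, ← pow_mul]
        _ ≤ (X : ℝ) ^ (8 * u) := pow_le_pow_right₀ hXr1 (by omega)
    have h4 : (X : ℝ) ^ (4 * a) ≤ (X : ℝ) ^ (4 * u) := pow_le_pow_right₀ hXr1 (by omega)
    calc (X : ℝ) ^ (4 * a) * 2 ^ ((p + 2) * a) *
        ((2 * (X : ℝ) ^ 3 * (a : ℝ) ^ 4) ^ (p + 2) * (8 * (X : ℝ) ^ 5) ^ z)
        ≤ (X : ℝ) ^ (4 * u) * (X : ℝ) ^ (3 * p * u) * ((a : ℝ) ^ (15 * p) *
          (X : ℝ) ^ (8 * u)) := by gcongr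
      _ = (X : ℝ) ^ (12 * u * 1 + 3 * p * u) * (a : ℝ) ^ (15 * p) := by ring
      _ ≤ (X : ℝ) ^ (12 * u * p + 3 * p * u) * (a : ℝ) ^ (15 * p) := by
          gcongr
      _ = ((X : ℝ) ^ (15 * u) * (a : ℝ) ^ 15) ^ p := by
          rw [mul_pow, ← pow_mul, ← pow_mul]
          congr 2
          ring
  calc ((a + b).choose a : ℝ) * 2 ^ ((p + 2) * a) *
      (((t + u - 1).choose (u - 1) : ℝ) * (u.factorial : ℝ)) * (u.factorial : ℝ) ^ 2
      ≤ (X : ℝ) ^ (4 * a) * 2 ^ ((p + 2) * a) * (2 * X * (a : ℝ) ^ 2) ^ u *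
        ((X * (a : ℝ)) ^ u) ^ 2 := by
        gcongr
        exact choose_le a b X hX hb
    _ = (X : ℝ) ^ (4 * a) * 2 ^ ((p + 2) * a) * (2 * (X : ℝ) ^ 3 * (a : ℝ) ^ 4) ^ u := by
        have h1 : (2 * (X : ℝ) ^ 3 * (a : ℝ) ^ 4) = (2 * X * (a : ℝ) ^ 2) * (X * (a : ℝ)) ^ 2 := by
          ring
        rw [h1, mul_pow, ← pow_mul, ← pow_mul, Nat.mul_comm 2 u]
        ring
    _ = ((X : ℝ) ^ (4 * a) * 2 ^ ((p + 2) * a) *
        ((2 * (X : ℝ) ^ 3 * (a : ℝ) ^ 4) ^ (p + 2) * (8 * (X : ℝ) ^ 5) ^ z)) *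
        ((a : ℝ) ^ 2 / (2 * X)) ^ (2 * z) := by
        rw [hsplit]
        ring
    _ ≤ ((X : ℝ) ^ (15 * u) * (a : ℝ) ^ 15) ^ p * (y : ℝ) ^ (2 * z) := by gcongr
    _ ≤ (Q ^ v) ^ p * (y : ℝ) ^ (2 * z) := by gcongr
    _ = Q ^ (p * v) * (y : ℝ) ^ (2 * z) := by rw [← pow_mul, Nat.mul_comm v p]
    _ ≤ (1 + (y : ℝ) / u) ^ (p * v) * (y : ℝ) ^ (2 * z) := by gcongr

end Vale.Agent.P181.RV.H201
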